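import Vale.Agent.P235.H646.RDec

/-!
# P235, vortices: a path decomposition plus noncrossing chords has small treewidth
-/

namespace Vale.Agent.P235.ST.H303

open Vale.Agent.P235

/-- lists of bags in which every new bag meets all older bags inside one older bag -/
inductive TD {X : Type} (K : ℕ) : List (Finset X) → Prop
  | one (b : Finset X) : b.card ≤ K → TD K [b]
  | cons (b : Finset X) (L : List (Finset X)) (p : Finset X) : TD K L → p ∈ L → b.card ≤ K →
      (∀ v ∈ b, ∀ c ∈ L, v ∈ c → v ∈ p) → TD K (b :: L)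

theorem TD.seq {X : Type} {K : ℕ} {L : List (Finset X)} (h : TD K L) :
    ∃ (N : ℕ) (C : ℕ → Finset X) (par : ℕ → ℕ),
      (∀ i, 0 < i → i ≤ N → par i < i) ∧
      (∀ i, 0 < i → i ≤ N → ∀ j < i, ∀ v, v ∈ C i → v ∈ C j → v ∈ C (par i)) ∧
      (∀ i ≤ N, (C i).card ≤ K) ∧ (∀ c ∈ L, ∃ i ≤ N, C i = c) ∧ (∀ i ≤ N, C i ∈ L) := by
  induction h with
  | one b hb =>
    exact ⟨0, fun _ => b, fun _ => 0, fun i h0 h1 => by omega, fun i h0 h1 => by omega,
      fun i _ => hb, fun c hc => ⟨0, le_refl _, (List.mem_singleton.1 hc).symm⟩,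
      fun i _ => List.mem_singleton.2 rfl⟩
  | cons b L p _ hp hb hv ih =>
    obtain ⟨N, C, par, h1, h2, h3, h4, h5⟩ := ih
    obtain ⟨q, hq, hqp⟩ := h4 p hp
    refine ⟨N + 1, fun i => if i = N + 1 then b else C i,
      fun i => if i = N + 1 then q else par i, ?_, ?_, ?_, ?_, ?_⟩
    · intro i h0 hi
      by_cases he : i = N + 1
      · simp only [he, if_true]
        omega
      · simp only [he, if_false]
        exact h1 i h0 (by omega)
    · intro i h0 hi j hj v hvi hvj
      by_cases he : i = N + 1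
      · have hj' : j ≠ N + 1 := by omega
        have hq' : q ≠ N + 1 := by omega
        simp only [he, if_true, hj', hq', if_false] at hvi hvj ⊢
        rw [hqp]
        exact hv v hvi _ (h5 j (by omega)) hvj
      · have hj' : j ≠ N + 1 := by omega
        have h6 := h1 i h0 (by omega)
        have hp' : par i ≠ N + 1 := by omega
        simp only [he, hj', hp', if_false] at hvi hvj ⊢
        exact h2 i h0 (by omega) j hj v hvi hvj
    · intro i hi
      by_cases he : i = N + 1
      · simp only [he, if_true]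
        exact hb
      · simp only [he, if_false]
        exact h3 i (by omega)
    · intro c hc
      rcases List.mem_cons.1 hc with rfl | hc
      · exact ⟨N + 1, le_refl _, by simp⟩
      · obtain ⟨i, hi, he⟩ := h4 c hc
        have hi' : i ≠ N + 1 := by omega
        exact ⟨i, by omega, by simp only [hi', if_false]; exact he⟩
    · intro i hi
      by_cases he : i = N + 1
      · simp only [he, if_true]
        exact List.mem_cons_self ..
      · simp only [he, if_false]
        exact List.mem_cons_of_mem _ (h5 i (by omega))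

theorem TD.treewidth {X : Type} {M : SimpleGraph X} {k : ℕ} {L : List (Finset X)}
    (h : TD (k + 1) L) (hc : ∀ v, ∃ c ∈ L, v ∈ c)
    (he : ∀ u v, M.Adj u v → ∃ c ∈ L, u ∈ c ∧ v ∈ c) : TreewidthLE M k := by
  obtain ⟨N, C, par, h1, h2, h3, h4, h5⟩ := h.seq
  exact Vale.Agent.P235.H646.RDec_treewidth (n := N) (B := C) (par := par)
    { sub := fun _ _ _ _ => Set.mem_univ _
      cover := fun v _ => by
        obtain ⟨c, hc', hv⟩ := hc v
        obtain ⟨i, hi, rfl⟩ := h4 c hc'
        exact ⟨i, hi, hv⟩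
      edge := fun u _ v _ huv => by
        obtain ⟨c, hc', hu, hv⟩ := he u v huv
        obtain ⟨i, hi, rfl⟩ := h4 c hc'
        exact ⟨i, hi, hu, hv⟩
      par_lt := h1
      rip := h2
      card := h3 }

theorem exists_split {n : ℕ} (Ch : Fin n → Fin n → Prop)
    (hch : ∀ a b c d : Fin n, a < b → b < c → c < d → Ch a c → ¬ Ch b d) {i j : Fin n}
    (hij : i.val + 1 < j.val) :
    ∃ k : Fin n, i < k ∧ k < j ∧
      ∀ a c, i ≤ a → a < k → k < c → c ≤ j → Ch a c → a = i ∧ c = j := by
  classical
  by_cases hne : (Finset.univ.filter fun k : Fin n => i < k ∧ k < j ∧ Ch i k).Nonempty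
  · have hmem := (Finset.mem_filter.1 (Finset.max'_mem _ hne)).2
    refine ⟨_, hmem.1, hmem.2.1, ?_⟩
    intro a c hia hak hkc hcj hac
    rcases eq_or_lt_of_le hia with rfl | hia
    · refine ⟨rfl, ?_⟩
      by_contra hcne
      have hc : c ∈ Finset.univ.filter fun k : Fin n => i < k ∧ k < j ∧ Ch i k :=
        Finset.mem_filter.2 ⟨Finset.mem_univ _, hmem.1.trans hkc, lt_of_le_of_ne hcj hcne, hac⟩
      exact absurd (Finset.le_max' _ c hc) (not_le.2 hkc)
    · exact absurd hac (hch i a _ c hia hak hkc hmem.2.2)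
  · have hj := j.isLt
    refine ⟨⟨i.val + 1, by omega⟩, Fin.lt_def.2 (by simp), Fin.lt_def.2 (by simpa using hij), ?_⟩
    intro a c hia hak hkc hcj hac
    have hak' : a.val < i.val + 1 := hak
    have hia' : i.val ≤ a.val := hia
    have hkc' : i.val + 1 < c.val := hkc
    have ha : a = i := Fin.ext (by omega)
    refine ⟨ha, ?_⟩
    by_contra hcne
    refine hne ⟨c, Finset.mem_filter.2 ⟨Finset.mem_univ _, Fin.lt_def.2 (by omega),
      lt_of_le_of_ne hcj hcne, ?_⟩⟩
    rw [← ha]
    exact hac

theorem expand {X : Type} [DecidableEq X] {n w : ℕ} (B : Fin n → Finset X)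
    (hcard : ∀ i, (B i).card ≤ w + 1)
    (hint : ∀ v i j k, i ≤ j → j ≤ k → v ∈ B i → v ∈ B k → v ∈ B j) (Ch : Fin n → Fin n → Prop)
    (hch : ∀ a b c d : Fin n, a < b → b < c → c < d → Ch a c → ¬ Ch b d) :
    ∀ (m : ℕ) (i j : Fin n), i ≤ j → j.val ≤ i.val + m → ∀ (L : List (Finset X)) (p : Finset X),
      TD (3 * w + 3) L → p ∈ L → B i ⊆ p → B j ⊆ p →
      (∀ t, i < t → t < j → ∀ v ∈ B t, ∀ c ∈ L, v ∈ c → v ∈ B i ∨ v ∈ B j) →
      ∃ L', TD (3 * w + 3) L' ∧ (∀ c ∈ L, c ∈ L') ∧
        (∀ c ∈ L', c ∈ L ∨ ∀ v ∈ c, ∃ t, i ≤ t ∧ t ≤ j ∧ v ∈ B t) ∧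
        (∀ t, i ≤ t → t ≤ j → ∃ c ∈ L', B t ⊆ c) ∧
        (∀ a c, i ≤ a → a < c → c ≤ j → Ch a c → ∃ e ∈ L', B a ⊆ e ∧ B c ⊆ e) := by
  intro m
  induction m with
  | zero =>
    intro i j hij hj L p hL hp hi hj' _
    have hij' : i.val ≤ j.val := hij
    have hij2 : i = j := Fin.ext (by omega)
    subst hij2
    refine ⟨L, hL, fun c hc => hc, fun c hc => Or.inl hc, fun t h1 h2 => ⟨p, hp, ?_⟩,
      fun a c h1 h2 h3 _ => absurd (lt_of_le_of_lt h1 (lt_of_lt_of_le h2 h3)) (lt_irrefl _)⟩
    rw [le_antisymm h2 h1]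
    exact hi
  | succ m ih =>
    intro i j hij hj L p hL hp hi hj' hnew
    have hij' : i.val ≤ j.val := hij
    by_cases hadj : j.val ≤ i.val + 1
    · refine ⟨L, hL, fun c hc => hc, fun c hc => Or.inl hc, fun t h1 h2 => ?_,
        fun a c h1 h2 h3 _ => ⟨p, hp, ?_, ?_⟩⟩
      · have h1' : i.val ≤ t.val := h1
        have h2' : t.val ≤ j.val := h2
        rcases Nat.lt_or_ge t.val j.val with h | h
        · have e : t = i := Fin.ext (by omega)
          exact ⟨p, hp, by rw [e]; exact hi⟩
        · have e : t = j := Fin.ext (by omega)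
          exact ⟨p, hp, by rw [e]; exact hj'⟩
      · have h1' : i.val ≤ a.val := h1
        have h2' : a.val < c.val := h2
        have h3' : c.val ≤ j.val := h3
        have e : a = i := Fin.ext (by omega)
        rw [e]
        exact hi
      · have h1' : i.val ≤ a.val := h1
        have h2' : a.val < c.val := h2
        have h3' : c.val ≤ j.val := h3
        have e : c = j := Fin.ext (by omega)
        rw [e]
        exact hj'
    · obtain ⟨k, hik, hkj, hcross⟩ := exists_split Ch hch (i := i) (j := j) (by omega)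
      have hik' : i.val < k.val := hik
      have hkj' : k.val < j.val := hkj
      obtain ⟨b, hbdef⟩ : ∃ b, b = B i ∪ B k ∪ B j := ⟨_, rfl⟩
      have hmem : ∀ v, v ∈ b ↔ v ∈ B i ∨ v ∈ B k ∨ v ∈ B j := by
        intro v
        rw [hbdef, Finset.mem_union, Finset.mem_union, or_assoc]
      have hbi : B i ⊆ b := fun v hv => (hmem v).2 (Or.inl hv)
      have hbk : B k ⊆ b := fun v hv => (hmem v).2 (Or.inr (Or.inl hv))
      have hbj : B j ⊆ b := fun v hv => (hmem v).2 (Or.inr (Or.inr hv))
      have hb : b.card ≤ 3 * w + 3 := by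
        rw [hbdef]
        have h1 := Finset.card_union_le (B i ∪ B k) (B j)
        have h2 := Finset.card_union_le (B i) (B k)
        have := hcard i
        have := hcard j
        have := hcard k
        omega
      have hL1 : TD (3 * w + 3) (b :: L) := by
        refine TD.cons b L p hL hp hb ?_
        intro v hv c hc hvc
        rcases (hmem v).1 hv with hv | hv | hv
        · exact hi hv
        · rcases hnew k hik hkj v hv c hc hvc with h | h
          · exact hi h
          · exact hj' h
        · exact hj' hv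
      have hbL : b ∈ b :: L := List.mem_cons_self ..
      obtain ⟨L2, h2TD, h2sub, h2new, h2t, h2c⟩ := ih i k hik.le (by omega) (b :: L) b hL1 hbL
        hbi hbk (by
          intro t hit htk v hv c hc hvc
          rcases List.mem_cons.1 hc with rfl | hc
          · rcases (hmem v).1 hvc with h | h | h
            · exact Or.inl h
            · exact Or.inr h
            · exact Or.inr (hint v t k j htk.le hkj.le hv h)
          · rcases hnew t hit (htk.trans hkj) v hv c hc hvc with h | h
            · exact Or.inl h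
            · exact Or.inr (hint v t k j htk.le hkj.le hv h))
      obtain ⟨L3, h3TD, h3sub, h3new, h3t, h3c⟩ := ih k j hkj.le (by omega) L2 b h2TD
        (h2sub b hbL) hbk hbj (by
          intro t hkt htj v hv c hc hvc
          rcases h2new c hc with hc | hc
          · rcases List.mem_cons.1 hc with rfl | hc
            · rcases (hmem v).1 hvc with h | h | h
              · exact Or.inl (hint v i k t hik.le hkt.le h hv)
              · exact Or.inl h
              · exact Or.inr h
            · rcases hnew t (hik.trans hkt) htj v hv c hc hvc with h | h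
              · exact Or.inl (hint v i k t hik.le hkt.le h hv)
              · exact Or.inr h
          · obtain ⟨s, _, hs2, hvs⟩ := hc v hvc
            exact Or.inl (hint v s k t hs2 hkt.le hvs hv))
      refine ⟨L3, h3TD, fun c hc => h3sub c (h2sub c (List.mem_cons_of_mem _ hc)), ?_, ?_, ?_⟩
      · intro c hc
        rcases h3new c hc with hc | hc
        · rcases h2new c hc with hc | hc
          · rcases List.mem_cons.1 hc with rfl | hc
            · right
              intro v hv
              rcases (hmem v).1 hv with h | h | h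
              · exact ⟨i, le_refl _, hij, h⟩
              · exact ⟨k, hik.le, hkj.le, h⟩
              · exact ⟨j, hij, le_refl _, h⟩
            · exact Or.inl hc
          · right
            intro v hv
            obtain ⟨t, h1, h2, h3⟩ := hc v hv
            exact ⟨t, h1, h2.trans hkj.le, h3⟩
        · right
          intro v hv
          obtain ⟨t, h1, h2, h3⟩ := hc v hv
          exact ⟨t, hik.le.trans h1, h2, h3⟩
      · intro t h1 h2
        rcases le_total t k with h | h
        · obtain ⟨c, hc, hs⟩ := h2t t h1 h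
          exact ⟨c, h3sub c hc, hs⟩
        · exact h3t t h h2
      · intro a c h1 h2 h3 h4
        by_cases hck : c ≤ k
        · obtain ⟨e, he, hs⟩ := h2c a c h1 h2 hck h4
          exact ⟨e, h3sub e he, hs⟩
        · by_cases hka : k ≤ a
          · exact h3c a c hka h2 h3 h4
          · obtain ⟨rfl, rfl⟩ := hcross a c h1 (not_le.1 hka) (not_le.1 hck) h3 h4
            exact ⟨b, h3sub b (h2sub b hbL), hbi, hbj⟩

/-- V2 of the vortex theorem: a path decomposition with bags `B i ∋ x i` of at most `w + 1`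
vertices, plus noncrossing chords between the `x i`, has treewidth at most `3 w + 2`. -/
theorem tw_noncross {X : Type} [Finite X] (M : SimpleGraph X) {n w : ℕ} (hn : 0 < n)
    (x : Fin n → X) (B : Fin n → Finset X) (hx : ∀ i, x i ∈ B i)
    (hcard : ∀ i, (B i).card ≤ w + 1) (hcov : ∀ v, ∃ i, v ∈ B i)
    (hint : ∀ v i j k, i ≤ j → j ≤ k → v ∈ B i → v ∈ B k → v ∈ B j)
    (hedge : ∀ u v, M.Adj u v → (∃ i, u ∈ B i ∧ v ∈ B i) ∨ ∃ i j, u = x i ∧ v = x j)
    (hnc : ∀ a b c d : Fin n, a < b → b < c → c < d → M.Adj (x a) (x c) →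
      (∃ i, x a ∈ B i ∧ x c ∈ B i) ∨ ¬ M.Adj (x b) (x d) ∨ ∃ i, x b ∈ B i ∧ x d ∈ B i) :
    TreewidthLE M (3 * w + 2) := by
  classical
  obtain ⟨i0, hi0⟩ : ∃ i0 : Fin n, i0.val = 0 := ⟨⟨0, hn⟩, rfl⟩
  obtain ⟨j0, hj0⟩ : ∃ j0 : Fin n, j0.val = n - 1 := ⟨⟨n - 1, by omega⟩, rfl⟩
  have hlo : ∀ t : Fin n, i0 ≤ t := fun t => Fin.le_def.2 (by omega)
  have hhi : ∀ t : Fin n, t ≤ j0 := fun t => Fin.le_def.2 (by have := t.isLt; omega)
  have h0 : TD (3 * w + 3) [B i0 ∪ B j0] := by
    refine TD.one _ ?_
    have h1 := Finset.card_union_le (B i0) (B j0)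
    have := hcard i0
    have := hcard j0
    omega
  obtain ⟨L, hL, _, _, ht, hc⟩ := expand B hcard hint
    (fun a c => M.Adj (x a) (x c) ∧ ¬ ∃ i, x a ∈ B i ∧ x c ∈ B i)
    (by
      rintro a b c d hab hbc hcd ⟨h1, h2⟩ ⟨h3, h4⟩
      rcases hnc a b c d hab hbc hcd h1 with h | h | h
      · exact h2 h
      · exact h h3
      · exact h4 h) n i0 j0 (hlo _) (by omega) [B i0 ∪ B j0] (B i0 ∪ B j0) h0
    (List.mem_singleton.2 rfl) Finset.subset_union_left Finset.subset_union_right (by
      intro t _ _ v _ c hc hvc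
      rw [List.mem_singleton.1 hc] at hvc
      exact Finset.mem_union.1 hvc)
  refine hL.treewidth (k := 3 * w + 2) ?_ ?_
  · intro v
    obtain ⟨i, hi⟩ := hcov v
    obtain ⟨c, hc', hs⟩ := ht i (hlo _) (hhi _)
    exact ⟨c, hc', hs hi⟩
  · intro u v huv
    by_cases hcom : ∃ i, u ∈ B i ∧ v ∈ B i
    · obtain ⟨i, hi, hi'⟩ := hcom
      obtain ⟨c, hc', hs⟩ := ht i (hlo _) (hhi _)
      exact ⟨c, hc', hs hi, hs hi'⟩
    · rcases hedge u v huv with h | ⟨i, j, rfl, rfl⟩
      · exact absurd h hcom
      · rcases lt_trichotomy i j with h | h | h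
        · obtain ⟨e, he, h1, h2⟩ := hc i j (hlo _) h (hhi _) ⟨huv, hcom⟩
          exact ⟨e, he, h1 (hx i), h2 (hx j)⟩
        · subst h
          exact absurd rfl huv.ne
        · obtain ⟨e, he, h1, h2⟩ := hc j i (hlo _) h (hhi _)
            ⟨huv.symm, fun ⟨t, h1, h2⟩ => hcom ⟨t, h2, h1⟩⟩
          exact ⟨e, he, h2 (hx i), h1 (hx j)⟩

end Vale.Agent.P235.ST.H303
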